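import Vale.Agent.P194.CentralUP
import Vale.Agent.P194.Defs
import Vale.Agent.P194.Extension

namespace Vale.Agent.Results.P194.CentralByUniqueProduct

open Vale.Agent.P194 MonoidAlgebra

universe u v

theorem central {K : Type u} [CommRing K] {G : Type v} [Group G] (Z : Subgroup G) [Z.Normal]
    (hZ : Z ≤ Subgroup.center G) [UniqueProds (G ⧸ Z)] :
    IsDedekindFiniteMonoid (MonoidAlgebra K G) := by
  have : IsMulCommutative Z := IsMulCommutative.of_comm fun a b =>
    Subtype.ext (Subgroup.mem_center_iff.1 (hZ b.2) a)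
  exact ⟨fun h => CentralUP.mul_eq_one_symm' Z hZ h⟩

/-- Central-by-unique-product groups, also above a locally indicable kernel. -/
theorem result :
    (∀ (K : Type u) [CommRing K] (G : Type v) [Group G] (Z : Subgroup G) [Z.Normal],
      Z ≤ Subgroup.center G → UniqueProds (G ⧸ Z) →
        IsDedekindFiniteMonoid (MonoidAlgebra K G)) ∧
    (∀ (K : Type u) [Field K] (G : Type v) [Group G] (L Z : Subgroup G) [L.Normal] [Z.Normal],
      L ≤ Z → (∀ z ∈ Z, ∀ g : G, g * z * g⁻¹ * z⁻¹ ∈ L) →
        IsLocallyIndicable 0 L ∨ IsLocallyIndicable (ringChar K) L →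
        UniqueProds (G ⧸ Z) → IsDedekindFiniteMonoid (MonoidAlgebra K G)) := by
  refine ⟨fun K _ G _ Z _ hZ _ => central Z hZ, fun K _ G _ L Z _ _ hLZ hc hL hU => ?_⟩
  let π := QuotientGroup.mk' L
  let e := QuotientGroup.quotientQuotientEquivQuotient L Z hLZ
  have : UniqueProds ((G ⧸ L) ⧸ Z.map π) := e.symm.uniqueProds_iff.1 hU
  have hZ' : Z.map π ≤ Subgroup.center (G ⧸ L) := by
    rintro _ ⟨z, hz, rfl⟩
    rw [Subgroup.mem_center_iff]
    intro q
    obtain ⟨g, rfl⟩ := QuotientGroup.mk'_surjective L q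
    rw [← mul_inv_eq_one]
    show π g * π z * (π z * π g)⁻¹ = 1
    rw [mul_inv_rev, ← map_inv, ← map_inv, ← map_mul, ← map_mul, ← map_mul]
    refine (QuotientGroup.eq_one_iff _).2 ?_
    simpa [mul_assoc] using hc z hz g
  have hQ := central (K := K) (Z.map π) hZ'
  refine ⟨fun {a b} hab => ?_⟩
  let A : Matrix (Fin 1) (Fin 1) (MonoidAlgebra K G) := Matrix.of fun _ _ => b * a
  have hM : A.map (mapDomainRingHom K π) = 1 := by
    refine Matrix.ext fun i j => ?_
    rw [Subsingleton.elim i j, Matrix.map_apply, Matrix.one_apply_eq]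
    show mapDomainRingHom K π (b * a) = 1
    rw [map_mul]
    exact hQ.mul_eq_one_symm (by rw [← map_mul, hab, map_one])
  have h := eq_zero_of_mul_eq_zero L A hM (step_of_indicable K L hL 1) (fun _ => 1 - b * a)
    (fun i => by
      simp only [Finset.univ_unique, Finset.sum_singleton, A, Matrix.of_apply]
      rw [sub_mul, one_mul, mul_assoc b a, ← mul_assoc a b a, hab, one_mul, sub_self])
  exact (sub_eq_zero.1 (congrFun h 0)).symm

end Vale.Agent.Results.P194.CentralByUniqueProduct
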