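import Vale.Agent.P194.Defs
import Vale.Agent.P194.DefsMore
import Vale.Agent.P194.Extension
import Vale.Agent.P194.Sofic
import Vale.Agent.P194.Amenable
import Vale.Agent.P194.Examples
import Vale.Agent.P194.Surjunctive

namespace Vale.Agent.Results.P194.IndicableBySofic

open Vale.Agent.P194

universe u v

/-- Stable finiteness passes to extensions with locally indicable (in characteristic `p`, locally
`Z/p`-indicable) kernel. -/
theorem result :
    (∀ (K : Type u) [DivisionRing K] (G : Type v) [Group G] (N : Subgroup G) [N.Normal],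
      (IsLocallyIndicable 0 N ∨ IsLocallyIndicable (ringChar K) N →
        IsStablyFiniteRing (MonoidAlgebra K (G ⧸ N)) ∨ IsSofic (G ⧸ N) ∨ IsAmenable (G ⧸ N) →
          IsStablyFiniteRing (MonoidAlgebra K G)) ∧
      (IsFreeGroup N ∨ ((∀ a b : N, a * b = b * a) ∧ IsMulTorsionFree N) →
        IsSofic (G ⧸ N) → IsStablyFiniteRing (MonoidAlgebra K G)) ∧
      (∀ p : ℕ, p.Prime → CharP K p →
        (∀ H : Subgroup N, H.FG → Finite H ∧ IsPGroup p H) →
        IsSofic (G ⧸ N) → IsStablyFiniteRing (MonoidAlgebra K G))) ∧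
    (∀ (K : Type u) [Field K] (G : Type v) [Group G] (N : Subgroup G) [N.Normal],
      IsLocallyIndicable 0 N ∨ IsLocallyIndicable (ringChar K) N →
        IsSurjunctive (G ⧸ N) → IsStablyFiniteRing (MonoidAlgebra K G)) := by
  refine ⟨fun K _ G _ N _ => ⟨fun hN hQ => stablyFinite_extension K N hN ?_,
    fun hN hQ => stablyFinite_extension K N (.inl ?_) (stablyFinite_of_sofic hQ),
    fun p hp hchar hN hQ => stablyFinite_extension K N (.inr ?_) (stablyFinite_of_sofic hQ)⟩,
    fun K _ G _ N _ hN hQ => stablyFinite_extension K N hN (stablyFinite_of_surjunctive hQ)⟩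
  · rcases hQ with h | h | h
    · exact h
    · exact stablyFinite_of_sofic h
    · exact stablyFinite_of_sofic (isSofic_of_isAmenable h)
  · rcases hN with h | ⟨hc, h⟩
    · exact isLocallyIndicable_of_isFreeGroup N
    · exact isLocallyIndicable_of_abelian N hc
  · have := Fact.mk hp
    rw [ringChar.eq K p]
    exact isLocallyIndicable_of_locallyFinite_pGroup p N hN

end Vale.Agent.Results.P194.IndicableBySofic
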