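import Vale.Agent.P194.Defs
import Vale.Agent.P194.DefsOrder
import Vale.Agent.P194.Extension
import Vale.Agent.P194.Ordered
import Mathlib.RingTheory.Noetherian.Basic
import Mathlib.Algebra.MonoidAlgebra.Module
import Mathlib.LinearAlgebra.Finsupp.Pi
import Mathlib.LinearAlgebra.FreeModule.Finite.Basic
import Mathlib.RingTheory.PrincipalIdealDomain

namespace Vale.Agent.Results.P194.NoetherianByOrdered

open Vale.Agent.P194

universe u v

/-- Stable finiteness for (Noetherian group algebra)-by-bi-orderable groups, and for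
locally-indicable-by-(finite-by-bi-orderable) groups. -/
theorem result :
    (∀ (K : Type u) [Ring K] (G : Type v) [Group G] (N : Subgroup G) [N.Normal],
      IsNoetherianRing (MonoidAlgebra K N) → IsBiOrderable (G ⧸ N) →
        IsStablyFiniteRing (MonoidAlgebra K G)) ∧
    (∀ (K : Type u) [DivisionRing K] (G : Type v) [Group G] (N : Subgroup G) [N.Normal],
      Finite N → IsBiOrderable (G ⧸ N) → IsStablyFiniteRing (MonoidAlgebra K G)) ∧
    (∀ (K : Type u) [DivisionRing K] (G : Type v) [Group G] (L : Subgroup G) [L.Normal]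
      (T : Subgroup (G ⧸ L)) [T.Normal],
      IsLocallyIndicable 0 L ∨ IsLocallyIndicable (ringChar K) L → Finite T →
        IsBiOrderable ((G ⧸ L) ⧸ T) → IsStablyFiniteRing (MonoidAlgebra K G)) := by
  have fin : ∀ (K : Type u) [DivisionRing K] (G : Type v) [Group G] (N : Subgroup G) [N.Normal],
      Finite N → IsBiOrderable (G ⧸ N) → IsStablyFiniteRing (MonoidAlgebra K G) := by
    intro K _ G _ N _ hN hQ
    have : Module.Finite K (MonoidAlgebra K N) :=
      Module.Finite.equiv (MonoidAlgebra.coeffLinearEquiv K).symm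
    have : IsNoetherianRing (MonoidAlgebra K N) :=
      isNoetherian_of_tower K (inferInstance : IsNoetherian K (MonoidAlgebra K N))
    exact stablyFinite_of_biOrderable N hQ
  refine ⟨fun K _ G _ N _ hN hQ => stablyFinite_of_biOrderable N hQ, fin, ?_⟩
  intro K _ G _ L _ T _ hL hT hQ
  exact stablyFinite_extension K L hL (fin K (G ⧸ L) T hT hQ)

end Vale.Agent.Results.P194.NoetherianByOrdered
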