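import Vale.Agent.P194.Residual

namespace Vale.Agent.Results.P194.ResiduallyFiniteByOrdered

open Vale.Agent.P194

universe u v

/-- Stable finiteness for (locally indicable)-by-((finitely generated residually
finite)-by-bi-orderable) groups. -/
theorem result :
    ∀ (K : Type u) [DivisionRing K] (G : Type v) [Group G] (L : Subgroup G) [L.Normal]
      (T : Subgroup (G ⧸ L)) [T.Normal],
      IsLocallyIndicable 0 L ∨ IsLocallyIndicable (ringChar K) L →
        Group.FG T → Group.ResiduallyFinite T → IsBiOrderable ((G ⧸ L) ⧸ T) →
          IsStablyFiniteRing (MonoidAlgebra K G) := by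
  intro K _ G _ L _ T _ hL hfg hrf hQ
  exact stablyFinite_extension K L hL (stablyFinite_fgRF_by_biOrderable T hQ)

end Vale.Agent.Results.P194.ResiduallyFiniteByOrdered
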